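import Vale.Agent.P083.H903.Final

open Filter Topology
open scoped BoundedContinuousFunction

namespace Vale.Agent.Results.P083.ExactUltraproducts

open Vale.Agent.P083 Vale.Agent.P083N Vale.Agent.P083.H903

/-- Norm ultrapowers of unital C*-algebras exist. -/
def UltrapowersExist : Prop :=
  ∀ (O : Type) [CStarAlgebra O] [Nontrivial O] (ω : Ultrafilter ℕ),
    ∃ (Q : Type) (_ : CStarAlgebra Q) (q : (ℕ →ᵇ O) →⋆ₐ[ℂ] Q), IsUltrapower O ω Q q

/-- Norm ultraproducts of sequences of unital C*-algebras exist. -/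
def UltraproductsExist : Prop :=
  ∀ (B : ℕ → Type) [∀ n, CStarAlgebra (B n)] [∀ n, Nontrivial (B n)] (ω : Ultrafilter ℕ),
    ∃ (Q : Type) (_ : CStarAlgebra Q) (q : (∀ n, B n) → Q), IsUltraprod B ω Q q

/-- There is no unital *-homomorphism from `A` to a norm ultrapower of `O₂`. -/
def NoUnitalHomToUltrapower (A : Type) [CStarAlgebra A] : Prop :=
  ∀ (O : Type) [CStarAlgebra O] [Nontrivial O] (s₁ s₂ : O), CuntzTwo s₁ s₂ →
    ∀ (ω : Ultrafilter ℕ) (Q : Type) [CStarAlgebra Q] (q : (ℕ →ᵇ O) →⋆ₐ[ℂ] Q),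
      IsUltrapower O ω Q q → IsEmpty (A →⋆ₐ[ℂ] Q)

/-- Every *-homomorphism (unital or not) from `A` to a norm ultraproduct `∏_ω B n`, where each
`B n` is an exact C*-algebra, a nuclear C*-algebra or `O₂`, is zero. -/
def NoHomToUltraproduct (A : Type) [CStarAlgebra A] : Prop :=
  ∀ (B : ℕ → Type) [∀ n, CStarAlgebra (B n)] [∀ n, Nontrivial (B n)],
    (∀ n, IsExactAlg (B n) ∨ IsNuclear (B n) ∨ ∃ s₁ s₂ : B n, CuntzTwo s₁ s₂) →
    ∀ (ω : Ultrafilter ℕ) (Q : Type) [CStarAlgebra Q] (q : (∀ n, B n) → Q),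
      IsUltraprod B ω Q q → ∀ Φ : A →⋆ₙₐ[ℂ] Q, Φ = 0

/-- **Kirchberg's embedding problem has a negative answer, also for ultraproducts of exact
C*-algebras.** The Cuntz algebra `O₂`, the norm ultrapowers and the norm ultraproducts of sequences
of C*-algebras exist, and there is one separable unital C*-algebra `A ≠ 0` such that
(1) there is no unital *-homomorphism (in particular no unital embedding) from `A` to a norm
ultrapower of `O₂`, and
(2) every *-homomorphism (unital or not) from `A` to a norm ultraproduct `∏_ω B n`, where each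
`B n` is an exact C*-algebra, a nuclear C*-algebra or `O₂`, is zero. -/
theorem result :
    (∃ (O : Type) (_ : CStarAlgebra O) (_ : Nontrivial O) (s₁ s₂ : O), CuntzTwo s₁ s₂) ∧
    UltrapowersExist ∧ UltraproductsExist ∧
    ∃ (A : Type) (_ : CStarAlgebra A), Nontrivial A ∧ TopologicalSpace.SeparableSpace A ∧
      NoUnitalHomToUltrapower A ∧ NoHomToUltraproduct A :=
  ⟨exists_cuntz, fun O _ _ ω => exists_isUltrapower O ω,
    fun B _ _ ω => exists_isUltraprod B ω, main_final⟩

end Vale.Agent.Results.P083.ExactUltraproducts
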