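import Vale.Agent.P083.H731S.Fin

open Filter Topology
open scoped BoundedContinuousFunction

namespace Vale.Agent.Results.P083.FiniteObstruction

open Vale.Agent.P083 Vale.Agent.P083N Vale.Agent.P083.H903 Vale.Agent.P083.H731S

/-- Norm ultrapowers of unital C*-algebras exist. -/
def UltrapowersExist : Prop :=
  ∀ (O : Type) [CStarAlgebra O] [Nontrivial O] (ω : Ultrafilter ℕ),
    ∃ (Q : Type) (_ : CStarAlgebra Q) (q : (ℕ →ᵇ O) →⋆ₐ[ℂ] Q), IsUltrapower O ω Q q

/-- There is no unital *-homomorphism from `A` to a norm ultrapower of `O₂`. -/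
def NoUnitalHomToUltrapower (A : Type) [CStarAlgebra A] : Prop :=
  ∀ (O : Type) [CStarAlgebra O] [Nontrivial O] (s₁ s₂ : O), CuntzTwo s₁ s₂ →
    ∀ (ω : Ultrafilter ℕ) (Q : Type) [CStarAlgebra Q] (q : (ℕ →ᵇ O) →⋆ₐ[ℂ] Q),
      IsUltrapower O ω Q q → IsEmpty (A →⋆ₐ[ℂ] Q)

/-- No tuple `x` in a C*-algebra `B ≠ 0` which is exact, nuclear or `O₂` satisfies the relations
`P(x) = 0` for all `P ∈ R` up to `ε`. -/
def NoApproximateSolution {k : ℕ} (R : Finset (FreeAlgebra ℂ (Fin k ⊕ Fin k))) (ε : ℝ) : Prop :=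
  ∀ (B : Type) [CStarAlgebra B] [Nontrivial B],
    (IsExactAlg B ∨ IsNuclear B ∨ ∃ s₁ s₂ : B, CuntzTwo s₁ s₂) →
    ∀ x : Fin k → B, ∃ P ∈ R, ε ≤ ‖evalStar x P‖

/-- **A finite obstruction in Kirchberg's embedding problem.** The Cuntz algebra `O₂` and its norm
ultrapowers exist, and there are finitely many *-polynomials `P ∈ R` in `k` noncommuting variables
and `ε > 0` such that
(1) there is a separable unital C*-algebra `A ≠ 0`, containing a tuple `x` with `P(x) = 0` for all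
`P ∈ R`, such that there is no unital *-homomorphism (in particular no unital embedding) from `A`
to a norm ultrapower of `O₂`, and
(2) for every C*-algebra `B ≠ 0` which is exact, nuclear or `O₂` and every tuple `x` in `B` there is
`P ∈ R` with `‖P(x)‖ ≥ ε`. -/
theorem result :
    (∃ (O : Type) (_ : CStarAlgebra O) (_ : Nontrivial O) (s₁ s₂ : O), CuntzTwo s₁ s₂) ∧
    UltrapowersExist ∧
    ∃ (k : ℕ) (R : Finset (FreeAlgebra ℂ (Fin k ⊕ Fin k))) (ε : ℝ), 0 < ε ∧
      (∃ (A : Type) (_ : CStarAlgebra A), Nontrivial A ∧ TopologicalSpace.SeparableSpace A ∧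
        (∃ x : Fin k → A, ∀ P ∈ R, evalStar x P = 0) ∧ NoUnitalHomToUltrapower A) ∧
      NoApproximateSolution R ε :=
  ⟨exists_cuntz, fun O _ _ ω => exists_isUltrapower O ω, main_fin⟩

end Vale.Agent.Results.P083.FiniteObstruction
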